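import Mathlib.NumberTheory.Chebyshev
import Vale.Agent.N016.Cheb
import Vale.Agent.PNT.Main
import Vale.Agent.P016Z.Fin.Artin

/-!
P016: mean values over the primes.
-/

open NumberField Finset Filter Topology

namespace Vale.Agent.N016C

open Vale.Agent.P016Z

/-- `N / log N` -/
noncomputable def G (N : ℕ) : ℝ := N / Real.log N

/-- `∑_{n ≤ N} f n ∼ d N / log N` -/
def AV (f : ℕ → ℝ) (d : ℝ) : Prop :=
  Tendsto (fun N => (∑ n ∈ range (N + 1), f n) / G N) atTop (𝓝 d)

theorem G_pos {N : ℕ} (h : 2 ≤ N) : 0 < G N :=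
  div_pos (by exact_mod_cast (by omega : 0 < N)) (Real.log_pos (by exact_mod_cast (by omega : 1 < N)))

theorem G_nonneg (N : ℕ) : 0 ≤ G N := div_nonneg (Nat.cast_nonneg N) (Real.log_natCast_nonneg N)

theorem div_G (B : ℝ) : Tendsto (fun N => B / G N) atTop (𝓝 0) := by
  have := (Real.isLittleO_log_id_atTop.tendsto_div_nhds_zero.comp
    tendsto_natCast_atTop_atTop).const_mul B
  rw [mul_zero] at this
  exact this.congr fun N => by simp [G, div_div_eq_mul_div, mul_div_assoc]

theorem le_G (B : ℝ) {ε : ℝ} (h : 0 < ε) : ∀ᶠ N in atTop, B ≤ ε * G N := by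
  filter_upwards [(div_G B).eventually (ge_mem_nhds h), eventually_ge_atTop 2] with N h1 h2
  exact (div_le_iff₀ (G_pos h2)).1 h1

theorem pow_le_G (C : ℝ) {δ ε : ℝ} (hδ : 0 < δ) (h : 0 < ε) :
    ∀ᶠ N : ℕ in atTop, C * (N : ℝ) ^ (1 - δ) ≤ ε * G N := by
  filter_upwards [Art.ev2 C 1 hδ h, eventually_ge_atTop 2] with N h1 h2
  have a1 : (1 : ℝ) < N := by exact_mod_cast (by omega : 1 < N)
  have a2 := Real.log_pos a1
  refine le_of_eq_of_le ?_ (mul_le_mul_of_nonneg_right h1 (G_nonneg N))
  rw [G, sub_eq_add_neg, Real.rpow_add (by linarith), Real.rpow_one]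
  field_simp

theorem AV.congr {f g : ℕ → ℝ} {d : ℝ} (h : AV f d) (B : ℕ) (e : ∀ n, B < n → f n = g n) :
    AV g d := by
  have := h.add (div_G (∑ n ∈ range (B + 1), (g n - f n)))
  rw [add_zero] at this
  refine this.congr' ?_
  filter_upwards [eventually_ge_atTop B] with N hN
  rw [← add_div, sum_subset (range_subset_range.2 (Nat.succ_le_succ hN)) fun n _ h => by
    rw [e n (by simpa using h), sub_self], ← sum_add_distrib]
  simp

theorem AV.const_mul {f : ℕ → ℝ} {d : ℝ} (h : AV f d) (c : ℝ) : AV (fun n => c * f n) (c * d) :=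
  (Tendsto.const_mul c h).congr fun N => by rw [← mul_sum, mul_div_assoc]

theorem AV.sum {ι : Type} (s : Finset ι) {f : ι → ℕ → ℝ} {d : ι → ℝ}
    (h : ∀ i ∈ s, AV (f i) (d i)) : AV (fun n => ∑ i ∈ s, f i n) (∑ i ∈ s, d i) :=
  (tendsto_finsetSum s h).congr fun N => by rw [← sum_div, sum_comm]

theorem av_ap {M ρ : ℕ} (hM : M ≠ 0) (h : ρ.Coprime M) :
    AV (fun n => if n.Prime ∧ n ≡ ρ [MOD M] then 1 else 0) (1 / Nat.totient M) := by
  have := NeZero.mk hM
  have h1 := (PNT.piAP_mul_log_div_tendsto ((ZMod.isUnit_iff_coprime ρ M).2 h)).comp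
    tendsto_natCast_atTop_atTop
  rw [one_div]
  refine h1.congr fun N => ?_
  simp only [Function.comp, G, div_div_eq_mul_div, PNT.piAP, Nat.floor_natCast, sum_boole,
    ZMod.natCast_eq_natCast_iff]
  congr 4
  ext n
  simp only [mem_filter, mem_Icc, mem_range]
  exact and_congr_left fun h => by have := h.1.two_le; omega

theorem dyadic {S : ℕ → ℝ} {ε : ℝ} (hε : 0 < ε)
    (h : ∀ᶠ X in atTop, ∀ Y, X ≤ Y → Y ≤ 2 * X → S Y - S X ≤ ε * G X) :
    ∀ᶠ N in atTop, S N ≤ 4 * ε * G N := by
  obtain ⟨X₀, h0⟩ := eventually_atTop.1 (h.and (eventually_ge_atTop 16))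
  have key : ∀ N, X₀ ≤ N → S N ≤ ∑ n ∈ range (2 * X₀ + 1), |S n| + 3 * ε * G N := by
    intro N
    induction N using Nat.strong_induction_on with
    | _ N ih =>
      intro hN
      rcases le_or_gt N (2 * X₀) with h1 | h1
      · exact (le_abs_self _).trans ((single_le_sum (f := fun n => |S n|)
          (fun _ _ => abs_nonneg _) (mem_range.2 (by omega))).trans
          (le_add_of_nonneg_right (mul_nonneg (by linarith) (G_nonneg N))))
      obtain ⟨X, x1, x2, x3⟩ : ∃ X, X₀ ≤ X ∧ N ≤ 2 * X ∧ 2 * X ≤ N + 1 :=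
        ⟨(N + 1) / 2, by omega, by omega, by omega⟩
      obtain ⟨h2, h3⟩ := h0 X x1
      have h4 : 4 * G X ≤ 3 * G N := by
        have a1 : (16 : ℝ) ≤ X := by exact_mod_cast h3
        have a2 : (N : ℝ) ≤ 2 * X := by exact_mod_cast x2
        have a3 : 2 * (X : ℝ) ≤ N + 1 := by exact_mod_cast x3
        have a4 : 4 * Real.log 2 ≤ Real.log X := by
          have := Real.log_le_log (by norm_num) a1
          rwa [show (16 : ℝ) = 2 ^ 4 by norm_num, Real.log_pow] at this
        have a5 : Real.log N ≤ Real.log 2 + Real.log X := by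
          rw [← Real.log_mul two_ne_zero (by linarith)]
          exact Real.log_le_log (by linarith) a2
        have a6 := Real.log_pos one_lt_two
        rw [G, G, ← mul_div_assoc, ← mul_div_assoc,
          div_le_div_iff₀ (by linarith) (Real.log_pos (by linarith))]
        nlinarith
      nlinarith [ih X (by omega) x1, h2 N (by omega) x2]
  filter_upwards [le_G (∑ n ∈ range (2 * X₀ + 1), |S n|) hε, eventually_ge_atTop X₀] with N h1 h2
  linarith [key N h2]

theorem li_G : Tendsto (fun N : ℕ => (∫ u in (2 : ℝ)..N, 1 / Real.log u) / G N) atTop (𝓝 1) := by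
  have h1 : Tendsto (fun x : ℝ => (∫ u in (2 : ℝ)..x, 1 / Real.log u ^ 2) / (x / Real.log x))
      atTop (𝓝 0) := by
    refine (Chebyshev.integral_one_div_log_sq_isBigO.trans_isLittleO ?_).tendsto_div_nhds_zero
    refine Asymptotics.isLittleO_iff_tendsto' (by simp) |>.mpr ?_
    refine Tendsto.congr' ?_ Real.tendsto_log_atTop.inv_tendsto_atTop
    filter_upwards [eventually_gt_atTop 0] with x _
    simp only [Pi.inv_apply]
    field_simp
  have h2 := ((tendsto_const_nhds (x := (1 : ℝ))).sub (div_G (2 / Real.log 2))).add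
    (h1.comp tendsto_natCast_atTop_atTop)
  rw [sub_zero, add_zero] at h2
  refine h2.congr' ?_
  filter_upwards [eventually_ge_atTop 2] with N hN
  have a1 : (2 : ℝ) ≤ N := by exact_mod_cast hN
  have i2 := Chebyshev.intervalIntegrable_one_div_log_sq one_lt_two (show 1 < (N : ℝ) by linarith)
  have i1 : IntervalIntegrable (fun u => 1 / Real.log u) MeasureTheory.volume 2 N := by
    refine ContinuousOn.intervalIntegrable fun x hx => ContinuousAt.continuousWithinAt ?_
    rw [Set.uIcc_of_le a1] at hx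
    have := hx.1
    have := Real.log_pos (show 1 < x by linarith)
    fun_prop (disch := positivity)
  have h3 := intervalIntegral.integral_eq_sub_of_hasDerivAt (f := fun u => u / Real.log u)
    (fun x hx => by
      rw [Set.uIcc_of_le a1] at hx
      have b1 : 0 < x := by linarith [hx.1]
      have b2 := (Real.log_pos (show 1 < x by linarith [hx.1])).ne'
      refine ((hasDerivAt_id x).div (Real.hasDerivAt_log b1.ne') b2).congr_deriv ?_
      simp only [id]
      field_simp) (i1.sub i2)
  rw [intervalIntegral.integral_sub i1 i2, sub_eq_iff_eq_add] at h3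
  have := (G_pos hN).ne'
  simp only [Function.comp]
  rw [h3, add_div, sub_div]
  congr 2
  exact (div_self this).symm

/-- the prime ideal theorem -/
theorem av_aK {θ : ℝ} (h1 : 3 / 4 ≤ θ) (h2 : θ < 1) (hC : HCONT) (hB : HBD) (hE : EXPLOG)
    (hN : NONVAN θ) (K : Type) [Field K] [NumberField K] [IsTotallyComplex K] :
    AV (fun n => if n.Prime then (aK K n : ℝ) else 0) 1 := by
  obtain ⟨C₁, hB⟩ := hB
  obtain ⟨C₂, hE⟩ := hE
  obtain ⟨C, δ, hC0, hδ, H⟩ := P004S.Ch.cnt (show 0 ≤ θ by linarith) h2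
  set D : ℝ := |C₁| + |C₂| + 1 with hD
  have hD1 : 1 ≤ D := by linarith [abs_nonneg C₁, abs_nonneg C₂]
  obtain ⟨F, hF⟩ := hC K 1 one_ne_zero (fun _ => 1) fun _ => rfl
  obtain ⟨h, hh1, hh2, hh3⟩ := hE K 1 fun n => by simp
  have hn1 : (1 : ℝ) ≤ Module.finrank ℚ K := by exact_mod_cast Module.finrank_pos
  have hn2 := Cheb.finrank_le_size K
  have hsub : {s : ℂ | θ < s.re} ⊆ {s : ℂ | 3 / 4 < s.re} := fun s hs => h1.trans_lt hs
  have hP : ∀ s, PK K (1 : ℕ →* ℂ) s =
      LSeries (fun n => ((if n.Prime then (aK K n : ℝ) else 0 : ℝ) : ℂ)) s := by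
    intro s
    unfold PK
    congr 1
    funext n
    split_ifs <;> simp
  have key := H (fun n => if n.Prime then (aK K n : ℝ) else 0) (D * size K)
    (fun s => F s * Complex.exp (-h s)) (by nlinarith)
    (fun n => by split_ifs <;> positivity)
    (fun n => by
      split_ifs with hn
      · have : (aK K n : ℝ) ≤ Module.finrank ℚ K := by exact_mod_cast Cheb.aK_le K hn
        nlinarith
      · nlinarith)
    ((hF.1.mono hsub).mul (hh1.mono hsub).neg.cexp)
    (fun s hs => mul_ne_zero (hN K F hF s hs) (Complex.exp_ne_zero _))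
    (fun s hs => by
      have e : LK K (fun _ => 1) s = Complex.exp (PK K (1 : ℕ →* ℂ) s + h s) := hh3 s hs
      rw [hF.2 s hs, e, mul_assoc, ← Complex.exp_add, add_neg_cancel_right, hP])
    (fun s hs hs' => by
      have k1 := hB K F hF s (hsub hs) hs'
      have k2 := hh2 s (hsub hs)
      rw [norm_mul, Complex.norm_exp]
      refine (mul_le_mul_of_nonneg_right k1 (Real.exp_pos _).le).trans ?_
      rw [← Real.exp_add]
      refine Real.exp_le_exp.2 ?_
      have k3 := (Complex.re_le_norm (-h s)).trans ((norm_neg _).trans_le k2)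
      have k4 := abs_nonneg s.im
      have k5 : size K ≤ size K * (1 + |s.im|) := by nlinarith
      have k6 : C₁ * (size K * (1 + |s.im|)) ≤ |C₁| * (size K * (1 + |s.im|)) :=
        mul_le_mul_of_nonneg_right (le_abs_self _) (by linarith)
      have k7 : C₂ * Module.finrank ℚ K ≤ |C₂| * (size K * (1 + |s.im|)) :=
        mul_le_mul (le_abs_self _) (by linarith) (by linarith) (abs_nonneg _)
      rw [hD]
      nlinarith)
  unfold AV
  generalize (fun n => if n.Prime then (aK K n : ℝ) else 0) = f at key ⊢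
  set S : ℕ → ℝ := fun N => ∑ n ∈ range (N + 1), f n - ∫ u in (2 : ℝ)..N, 1 / Real.log u with hS
  have h3 : ∀ X Y : ℕ, 2 ≤ X → X ≤ Y → Y ≤ 2 * X →
      |S Y - S X| ≤ C * (D * size K) * (X : ℝ) ^ (1 - δ) := by
    intro X Y a b c
    have i1 : ∀ u v : ℝ, 2 ≤ u → u ≤ v →
        IntervalIntegrable (fun u => 1 / Real.log u) MeasureTheory.volume u v := by
      intro u v hu hv
      refine ContinuousOn.intervalIntegrable fun x hx => ContinuousAt.continuousWithinAt ?_
      rw [Set.uIcc_of_le hv] at hx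
      have := hx.1
      have := Real.log_pos (show 1 < x by linarith)
      have : 0 < x := by linarith
      fun_prop (disch := positivity)
    have a' : (2 : ℝ) ≤ X := by exact_mod_cast a
    refine le_of_eq_of_le (congrArg _ ?_) (key X Y a b c)
    simp only [hS]
    rw [← intervalIntegral.integral_add_adjacent_intervals (i1 2 X le_rfl a')
      (i1 X Y a' (by exact_mod_cast b)), ← sum_range_add_sum_Ico f (Nat.add_le_add_right b 1),
      Ico_add_one_add_one_eq_Ioc]
    ring
  have h4 : Tendsto (fun N => S N / G N) atTop (𝓝 0) := by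
    refine Metric.tendsto_nhds.2 fun ε hε => ?_
    have h5 : ∀ᶠ X in atTop, ∀ Y, X ≤ Y → Y ≤ 2 * X → |S Y - S X| ≤ ε / 8 * G X := by
      filter_upwards [pow_le_G (C * (D * size K)) hδ (show 0 < ε / 8 by positivity),
        eventually_ge_atTop 2] with X a b Y c d
      exact (h3 X Y b c d).trans a
    filter_upwards [dyadic (S := S) (by positivity) (h5.mono fun X a Y b c => (abs_le.1 (a Y b c)).2),
      dyadic (S := fun N => -S N) (ε := ε / 8) (by positivity)
        (h5.mono fun X a Y b c => by linarith [(abs_le.1 (a Y b c)).1]),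
      eventually_ge_atTop 2] with N a b c
    have := G_pos c
    rw [dist_zero_right, Real.norm_eq_abs, abs_div, abs_of_pos this, div_lt_iff₀ this, abs_lt]
    constructor <;> nlinarith
  have h6 := h4.add li_G
  rw [zero_add] at h6
  exact h6.congr fun N => by rw [← add_div, sub_add_cancel]

end Vale.Agent.N016C
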