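import Mathlib.NumberTheory.NumberField.Cyclotomic.Basic
import Mathlib.NumberTheory.LegendreSymbol.JacobiSymbol
import Vale.Agent.N016C.Den

/-!
P016: the density of the primes which split completely in a Kummer field.
-/

open NumberField Finset Filter Topology Polynomial IntermediateField

namespace Vale.Agent.N016C

open Vale.Agent.P016Z

/-- the prime ideal theorem for totally complex fields -/
def PIT : Prop := ∀ (K : Type) [Field K] [NumberField K] [IsTotallyComplex K],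
  AV (fun n => if n.Prime then (aK K n : ℝ) else 0) 1

open Classical in
/-- the indicator function of the primes with `T` -/
noncomputable def ind (T : ℕ → Prop) (n : ℕ) : ℝ := if n.Prime ∧ T n then 1 else 0

variable {ι : Type}

/-- `n ∣ p - 1` and all `a i` are `n`-th powers modulo `p` -/
def Cd (a : ι → ℤ) (n p : ℕ) : Prop := n ∣ p - 1 ∧ ∀ i, (a i : ZMod p) ^ ((p - 1) / n) = 1

section

variable {K : Type} [Field K] [NumberField K]

theorem hom_of_aK {p : ℕ} (hp : p.Prime) (h : aK K p ≠ 0) {n : ℕ} (hn : ¬ p ∣ n) {ζ : K}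
    (hζ : IsPrimitiveRoot ζ n) : n ∣ p - 1 ∧ Nonempty (𝓞 K →+* ZMod p) := by
  obtain ⟨⟨P, hP⟩⟩ := (Nat.card_ne_zero.1 h).1
  have : NeZero n := ⟨by rintro rfl; exact hn (dvd_zero p)⟩
  have : P.IsPrime := Ideal.isPrime_of_irreducible_absNorm (hP ▸ (hp : Irreducible p))
  have hP0 : P ≠ ⊥ := fun e => hp.ne_zero (by rw [← hP, e, Ideal.absNorm_bot])
  have : P.IsMaximal := Ring.DimensionLEOne.maximalOfPrime hP0 inferInstance
  have h1 := hζ.toInteger_isPrimitiveRoot.idealQuotient_mk (I := P)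
    (by rw [hP]; exact hp.one_lt.ne') (by rw [hP]; exact (Nat.Prime.coprime_iff_not_dvd hp).2 hn)
  let _ := Ideal.Quotient.field P
  have := Fintype.ofFinite (𝓞 K ⧸ P)
  have h2 := h1.dvd_of_pow_eq_one _
    (FiniteField.pow_card_sub_one_eq_one _ (h1.ne_zero (NeZero.ne n)))
  have h4 : Fintype.card (𝓞 K ⧸ P) = p := by
    rw [← hP, Ideal.absNorm_apply, Submodule.cardQuot_apply, Nat.card_eq_fintype_card]
  rw [h4] at h2
  exact ⟨h2, ⟨(ZMod.ringEquivOfPrime _ hp h4).symm.toRingHom.comp (Ideal.Quotient.mk P)⟩⟩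

open scoped Pointwise Classical in
theorem aK_rad [IsGalois ℚ K] {a : ι → ℤ} {n p : ℕ}
    (hadj : Algebra.adjoin ℚ {β : K | ∃ i, β ^ n = a i} = ⊤) (hr : ∀ i, ∃ β : K, β ^ n = a i)
    {ζ : K} (hζ : IsPrimitiveRoot ζ n) (hp : p.Prime) (hn : ¬ p ∣ n) (ha : ∀ i, ¬ (p : ℤ) ∣ a i) :
    aK K p = if Cd a n p then Module.finrank ℚ K else 0 := by
  have hn0 : n ≠ 0 := by rintro rfl; exact hn (dvd_zero p)
  have key : ∀ (β : K) (i : ι), β ^ n = a i →
      ∃ y : 𝓞 K, algebraMap (𝓞 K) K y = β ∧ y ^ n = a i := fun β i hβ => by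
    have hint : IsIntegral ℤ β := ⟨X ^ n - C (a i), monic_X_pow_sub_C _ hn0, by
      rw [eval₂_sub, eval₂_C, eval₂_X_pow, hβ]; simp⟩
    obtain ⟨y, rfl⟩ : ∃ y : 𝓞 K, algebraMap (𝓞 K) K y = β := ⟨⟨β, hint⟩, rfl⟩
    exact ⟨y, rfl, RingOfIntegers.coe_injective (by rw [map_pow, map_intCast]; exact hβ)⟩
  split_ifs with h
  · have e : aK ℚ p = 1 := le_antisymm
      ((Cheb.aK_le ℚ hp).trans (Module.finrank_self ℚ).le) (one_le_aK_rat p)
    rw [← mul_one (Module.finrank ℚ K), ← e]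
    refine aK_eq_of_stab hp fun P hP hpP σ hσ => ?_
    refine AlgEquiv.coe_toAlgHom_injective (AlgHom.ext_of_adjoin_eq_top hadj ?_)
    rintro β ⟨i, hβ⟩
    obtain ⟨y, rfl, hy⟩ := key β i hβ
    exact congrArg (algebraMap (𝓞 K) K) (fix_root P hp hpP h.1 (ha i) (h.2 i)
      (MulSemiringAction.toRingHom Gal(K/ℚ) (𝓞 K) σ)
      (fun x hx => by rw [← hσ]; exact Ideal.smul_mem_pointwise_smul σ x P hx) hy)
  · by_contra h0
    obtain ⟨h1, ⟨φ⟩⟩ := hom_of_aK hp h0 hn hζ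
    refine h ⟨h1, fun i => ?_⟩
    obtain ⟨β, hβ⟩ := hr i
    obtain ⟨y, -, hy⟩ := key β i hβ
    have := Fact.mk hp
    have e : φ y ^ n = a i := by rw [← map_pow, hy, map_intCast]
    rw [← e, ← pow_mul, Nat.mul_div_cancel' h1]
    refine ZMod.pow_card_sub_one_eq_one fun e0 => ha i ?_
    rw [← ZMod.intCast_zmod_eq_zero_iff_dvd, ← e, e0, zero_pow hn0]

variable (K) in
theorem exists_cyc {q : ℕ} (hq : q.Prime) (h2 : 2 < q) (hd : ¬ (q : ℤ) ∣ discr K) :
    ∃ (L : Type) (_ : Field L) (_ : NumberField L) (_ : IsTotallyComplex L),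
      ∀ p : ℕ, p.Prime → q < p → aK L p = if p ≡ 1 [MOD q] then (q - 1) * aK K p else 0 := by
  have := Fact.mk hq
  obtain ⟨L, _, _, hL⟩ : ∃ (L : Type) (_ : Field L) (_ : Algebra K L),
      IsCyclotomicExtension {q} K L := ⟨CyclotomicField q K, inferInstance, _, inferInstance⟩
  have : NumberField L := IsCyclotomicExtension.numberField {q} K L
  have hζ := IsCyclotomicExtension.zeta_spec q K L
  have : IsGalois K L := IsCyclotomicExtension.isGalois {q} K L
  have hdeg : Module.finrank K L = q - 1 := by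
    refine le_antisymm ?_ ?_
    · rw [(hζ.powerBasis K).finrank, IsPrimitiveRoot.powerBasis_dim, ← Nat.totient_prime hq,
        ← natDegree_cyclotomic q K]
      exact natDegree_le_of_dvd (minpoly.dvd K _ (IsCyclotomicExtension.aeval_zeta q K L))
        (cyclotomic_ne_zero q K)
    · generalize IsCyclotomicExtension.zeta q K L = ζ at hζ
      have : IsCyclotomicExtension {q} ℚ ℚ⟮ζ⟯ := hζ.intermediateField_adjoin_isCyclotomicExtension ℚ
      have := IsCyclotomicExtension.isGalois {q} ℚ ℚ⟮ζ⟯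
      have e := (IsScalarTower.toAlgHom ℚ K L).equivFieldRange
      have h1 := (linearDisjoint_of_isGalois_isCoprime_discr L
        ℚ⟮ζ⟯ (IsScalarTower.toAlgHom ℚ K L).fieldRange (by
          rw [← discr_eq_discr_of_algEquiv K e, IsCyclotomicExtension.Rat.discr_prime q]
          refine IsCoprime.mul_left (IsCoprime.pow_left isCoprime_one_left.neg_left)
            (IsCoprime.pow_left ?_)
          exact (Prime.coprime_iff_not_dvd (Nat.prime_iff_prime_int.1 hq)).2 hd)).finrank_sup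
      have h3 := h1.trans (congrArg₂ (· * ·) (IsCyclotomicExtension.Rat.finrank q ℚ⟮ζ⟯)
        e.toLinearEquiv.finrank_eq.symm)
      rw [Nat.totient_prime hq] at h3
      refine Nat.le_of_mul_le_mul_right ?_ (Module.finrank_pos (R := ℚ) (M := K))
      rw [← h3, mul_comm, Module.finrank_mul_finrank]
      exact Submodule.finrank_le
        (ℚ⟮ζ⟯ ⊔ (IsScalarTower.toAlgHom ℚ K L).fieldRange).toSubalgebra.toSubmodule
  refine ⟨L, inferInstance, inferInstance, nrRealPlaces_eq_zero_iff.1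
    (InfinitePlace.IsPrimitiveRoot.nrRealPlaces_eq_zero_of_two_lt h2 hζ), fun p hp h3 => ?_⟩
  split_ifs with h
  · rw [← hdeg]
    refine aK_eq_of_radical (n := q) (a := 1) hp ((Nat.modEq_iff_dvd' hp.one_le).1 h.symm)
      (fun e => hp.one_lt.ne' (by exact_mod_cast Int.eq_one_of_dvd_one (by positivity) e))
      (by simp) ?_
    rw [eq_top_iff, ← IsCyclotomicExtension.adjoin_primitive_root_eq_top hζ]
    exact Algebra.adjoin_mono (Set.singleton_subset_iff.2 (by simpa using hζ.pow_eq_one))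
  · by_contra h0
    exact h ((Nat.modEq_iff_dvd' hp.one_le).2
      (hom_of_aK hp h0 (Nat.not_dvd_of_pos_of_lt hq.pos h3) hζ).1).symm

open Classical in
theorem av_per (H : PIT) {T : ℕ → Prop} {B M : ℕ} (hM : M ≠ 0)
    (h1 : ∀ p : ℕ, p.Prime → B < p → aK K p = if T p then Module.finrank ℚ K else 0)
    (h2 : ∀ p p' : ℕ, p.Prime → p'.Prime → B < p → B < p' → p ≡ p' [MOD M] → T p → T p') :
    AV (ind T) (1 / Module.finrank ℚ K) := by
  set R := (range M).filter fun ρ => ∃ p : ℕ, p.Prime ∧ B + M < p ∧ T p ∧ p % M = ρ with hR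
  have c1 : ∀ ρ ∈ R, ρ.Coprime M := fun ρ hρ => by
    obtain ⟨p, p1, p2, -, rfl⟩ := (mem_filter.1 hρ).2
    rw [Nat.Coprime, ← Nat.gcd_rec]
    exact Nat.coprime_of_lt_prime hM (by omega) p1 |>.symm
  have c2 : ∀ n, B + M < n →
      ∑ ρ ∈ R, (if n.Prime ∧ n ≡ ρ [MOD M] then (1 : ℝ) else 0) = ind T n := by
    intro n hn
    rw [sum_congr rfl (g := fun ρ => if n % M = ρ then (if n.Prime then (1 : ℝ) else 0) else 0)
      fun ρ hρ => by
        simp only [Nat.ModEq, Nat.mod_eq_of_lt (mem_range.1 (mem_filter.1 hρ).1),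
          and_comm (a := n.Prime), ite_and],
      sum_ite_eq, ← ite_and, ind]
    refine if_congr ⟨fun h => ⟨h.2, ?_⟩, fun h => ⟨mem_filter.2 ⟨mem_range.2
      (Nat.mod_lt _ (by omega)), n, h.1, hn, h.2, rfl⟩, h.1⟩⟩ rfl rfl
    obtain ⟨p, p1, p2, p3, p4⟩ := (mem_filter.1 h.1).2
    exact h2 p n p1 h.2 (by omega) (by omega) p4 p3
  have a1 := (AV.sum R fun ρ hρ => av_ap hM (c1 ρ hρ)).congr _ c2
  obtain ⟨q, q1, hq⟩ := Nat.exists_infinite_primes (M + (discr K).natAbs + 3)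
  have c3 : M.Coprime q := (Nat.coprime_of_lt_prime hM (by omega) hq).symm
  obtain ⟨L, _, _, _, hL⟩ := exists_cyc K hq (by omega) fun h => by
    have := Nat.le_of_dvd (Int.natAbs_pos.2 (discr_ne_zero K)) (Int.natCast_dvd.1 h)
    omega
  have a2 := ((AV.sum R fun ρ hρ => av_ap (M := M * q) (ρ := Nat.chineseRemainder c3 ρ 1)
    (mul_ne_zero hM hq.ne_zero) (Nat.Coprime.mul_right
      (by rw [Nat.Coprime, (Nat.chineseRemainder c3 ρ 1).2.1.gcd_eq]; exact c1 ρ hρ)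
      (by rw [Nat.Coprime, (Nat.chineseRemainder c3 ρ 1).2.2.gcd_eq]; simp))).const_mul
      (((q - 1 : ℕ) : ℝ) * Module.finrank ℚ K)).congr
      (g := fun n => if n.Prime then (aK L n : ℝ) else 0) (B + M + q) fun n hn => by
    rw [sum_congr rfl (g := fun ρ => (if n ≡ 1 [MOD q] then 1 else 0) *
      if n.Prime ∧ n ≡ ρ [MOD M] then (1 : ℝ) else 0) fun ρ _ => by
        rw [ite_zero_mul_ite_zero, mul_one]
        refine if_congr ?_ rfl rfl
        obtain ⟨d1, d2⟩ := (Nat.chineseRemainder c3 ρ 1).2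
        rw [← Nat.modEq_and_modEq_iff_modEq_mul c3]
        exact ⟨fun h => ⟨h.2.2.trans d2, h.1, h.2.1.trans d1⟩,
          fun h => ⟨h.2.1, h.2.2.trans d1.symm, h.1.trans d2.symm⟩⟩,
      ← mul_sum, c2 n (by omega), ind]
    by_cases hp : n.Prime
    · rw [if_pos hp, hL n hp (by omega), h1 n hp (by omega)]
      by_cases d1 : n ≡ 1 [MOD q] <;> by_cases d2 : T n <;> simp [d1, d2, hp]
    · simp [hp]
  have a3 := tendsto_nhds_unique a2 (H L)
  have d0 : (Module.finrank ℚ K : ℝ) ≠ 0 := by exact_mod_cast Module.finrank_pos.ne'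
  have d1 : ((q - 1 : ℕ) : ℝ) ≠ 0 := by exact_mod_cast (by omega : q - 1 ≠ 0)
  rw [Nat.totient_mul c3, Nat.totient_prime hq, sum_const, nsmul_eq_mul, Nat.cast_mul] at a3
  rw [sum_const, nsmul_eq_mul] at a1
  rwa [show (1 : ℝ) / Module.finrank ℚ K = R.card * (1 / Nat.totient M) by
    rw [div_eq_iff d0]
    refine a3.symm.trans ?_
    field_simp]

end

theorem exists_K [Fintype ι] [Nonempty ι] {a : ι → ℤ} (ha : ∀ i, a i ≠ 0) {n : ℕ} (hn : n ≠ 0) :
    ∃ (K : Type) (_ : Field K) (_ : NumberField K) (_ : IsGalois ℚ K),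
      Module.finrank ℚ K = Module.finrank ℚ (adjoin ℚ {z : ℂ | ∃ i, z ^ n = a i}) ∧
      Algebra.adjoin ℚ {β : K | ∃ i, β ^ n = a i} = ⊤ ∧ (∀ i, ∃ β : K, β ^ n = a i) ∧
      ∃ ζ : K, IsPrimitiveRoot ζ n := by
  have hr : ∀ (L : Type) [Field L] [Algebra ℚ L],
      (∏ i, (X ^ n - C (a i : ℚ))).rootSet L = {z : L | ∃ i, z ^ n = a i} := by
    intro L _ _
    ext z
    rw [mem_rootSet_of_ne (prod_ne_zero_iff.2 fun i _ => (monic_X_pow_sub_C _ hn).ne_zero)]
    simp [prod_eq_zero_iff, sub_eq_zero]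
  have hs0 := adjoin_rootSet_isSplittingField (p := ∏ i, (X ^ n - C (a i : ℚ))) (L := ℂ)
    (IsAlgClosed.splits _)
  rw [hr ℂ] at hs0
  have hs : IsSplittingField ℚ (adjoin ℚ {z : ℂ | ∃ i, z ^ n = a i})
    (∏ i, (X ^ n - C (a i : ℚ))) := hs0
  have h1 := IsSplittingField.adjoin_rootSet (adjoin ℚ {z : ℂ | ∃ i, z ^ n = a i})
    (∏ i, (X ^ n - C (a i : ℚ)))
  rw [hr] at h1
  have := IsSplittingField.finiteDimensional (adjoin ℚ {z : ℂ | ∃ i, z ^ n = a i})
    (∏ i, (X ^ n - C (a i : ℚ)))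
  have := Normal.of_isSplittingField _ (hFEp := hs)
  have hz : ∀ i, ∃ z : ℂ, z ^ n = a i := fun i => IsAlgClosed.exists_pow_nat_eq _ (by omega)
  refine ⟨adjoin ℚ {z : ℂ | ∃ i, z ^ n = a i}, inferInstance, NumberField.of_module_finite ℚ _,
    ⟨⟩, rfl, h1, fun i => ?_, ?_⟩
  · obtain ⟨z, e⟩ := hz i
    exact ⟨⟨z, subset_adjoin _ _ ⟨i, e⟩⟩, Subtype.ext (by simpa using e)⟩
  · obtain ⟨i⟩ := ‹Nonempty ι›
    obtain ⟨z, e⟩ := hz i
    have z0 : z ≠ 0 := by
      rintro rfl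
      rw [zero_pow hn] at e
      exact ha i (by exact_mod_cast e.symm)
    have h2 := Complex.isPrimitiveRoot_exp n hn
    refine ⟨⟨_, ?_⟩, IsPrimitiveRoot.coe_submonoidClass_iff.1 h2⟩
    rw [← mul_div_cancel_right₀ (Complex.exp _) z0]
    exact div_mem (subset_adjoin _ _ ⟨i, by rw [mul_pow, h2.pow_eq_one, one_mul, e]⟩)
      (subset_adjoin _ _ ⟨i, e⟩)

theorem av_cd (H : PIT) [Fintype ι] [Nonempty ι] {a : ι → ℤ} (ha : ∀ i, a i ≠ 0) {n : ℕ}
    (hn : n ≠ 0) :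
    AV (ind (Cd a n)) (1 / Module.finrank ℚ (adjoin ℚ {z : ℂ | ∃ i, z ^ n = a i})) := by
  classical
  obtain ⟨K, _, _, _, h1, h2, h3, ζ, h4⟩ := exists_K ha hn
  rw [← h1]
  have c0 : ∀ p : ℕ, n + ∑ i, (a i).natAbs < p → ∀ i, ¬ (p : ℤ) ∣ a i := fun p hp i h => by
    have b1 := Nat.le_of_dvd (Int.natAbs_pos.2 (ha i)) (Int.natCast_dvd.1 h)
    have b2 := single_le_sum (f := fun i => (a i).natAbs) (fun _ _ => Nat.zero_le _) (mem_univ i)
    omega
  have c1 : ∀ p : ℕ, p.Prime → n + ∑ i, (a i).natAbs < p →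
      aK K p = if Cd a n p then Module.finrank ℚ K else 0 := fun p hp h =>
    aK_rad h2 h3 h4 hp (Nat.not_dvd_of_pos_of_lt (by omega) (by omega)) (c0 p h)
  rcases lt_or_ge 2 n with h5 | h5
  · have : IsTotallyComplex K := nrRealPlaces_eq_zero_iff.1
      (InfinitePlace.IsPrimitiveRoot.nrRealPlaces_eq_zero_of_two_lt h5 h4)
    have d0 : (Module.finrank ℚ K : ℝ) ≠ 0 := by exact_mod_cast Module.finrank_pos.ne'
    have := ((H K).const_mul (1 / Module.finrank ℚ K)).congr (g := ind (Cd a n)) _ fun p hp => by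
      by_cases h : p.Prime
      · rw [if_pos h, c1 p h hp, ind]
        by_cases h' : Cd a n p <;> simp [h, h', d0]
      · simp [ind, h]
    rwa [mul_one] at this
  refine av_per (M := 4 * ∏ i, (a i).natAbs) H (mul_ne_zero four_ne_zero
    (prod_ne_zero_iff.2 fun i _ => Int.natAbs_ne_zero.2 (ha i))) c1
    fun p p' hp hp' b1 b2 e h => ?_
  have := Fact.mk hp
  have := Fact.mk hp'
  have z1 := fun i => mt (ZMod.intCast_zmod_eq_zero_iff_dvd (a i) p).1 (c0 p b1 i)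
  have z2 := fun i => mt (ZMod.intCast_zmod_eq_zero_iff_dvd (a i) p').1 (c0 p' b2 i)
  obtain rfl | rfl : n = 1 ∨ n = 2 := by omega
  · exact ⟨one_dvd _, fun i => by rw [Nat.div_one, ZMod.pow_card_sub_one_eq_one (z2 i)]⟩
  have o1 := hp.odd_of_ne_two (by omega)
  have o2 := hp'.odd_of_ne_two (by omega)
  have o3 : ∀ m : ℕ, Odd m → (m - 1) / 2 = m / 2 := by
    rintro _ ⟨k, rfl⟩
    omega
  refine ⟨(Nat.Odd.sub_odd o2 odd_one).two_dvd, fun i => ?_⟩
  have h6 := h.2 i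
  rw [o3 p o1, ← ZMod.euler_criterion p (z1 i), ← legendreSym.eq_one_iff p (z1 i),
    jacobiSym.legendreSym.to_jacobiSym, jacobiSym.mod_right _ o1,
    e.of_dvd (mul_dvd_mul_left 4 (dvd_prod_of_mem _ (mem_univ i))),
    ← jacobiSym.mod_right _ o2] at h6
  rw [o3 p' o2, ← ZMod.euler_criterion p' (z2 i)]
  exact ZMod.isSquare_of_jacobiSym_eq_one h6

end Vale.Agent.N016C
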