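import Vale.Agent.N016B.Poly
import Vale.Agent.N016C.Fld

/-!
P016: primes modulo which the index of a group of large rank has a large prime factor.
-/

open Finset Filter Topology Polynomial

namespace Vale.Agent.N016C

open Vale.Agent.P016Z Vale.Agent.N016B

variable {r : ℕ} {a : Fin r → ℤ}

/-- the group generated by the `a i` modulo `p` -/
def gp (a : Fin r → ℤ) (p : ℕ) : Subgroup (ZMod p)ˣ :=
  Subgroup.closure {u : (ZMod p)ˣ | ∃ i, (u : ZMod p) = a i}

theorem card_gp {p : ℕ} (hp : p.Prime) : Nat.card (gp a p) * (gp a p).index = p - 1 := by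
  have := Fact.mk hp
  rw [Subgroup.card_mul_index, Nat.card_eq_fintype_card, ZMod.card_units]

theorem ex_unit {p : ℕ} (hp : p.Prime) (h : ∀ i, ¬ (p : ℤ) ∣ a i) :
    ∃ u : Fin r → gp a p, ∀ i, (((u i : gp a p) : (ZMod p)ˣ) : ZMod p) = a i := by
  have := Fact.mk hp
  exact ⟨fun i => ⟨Units.mk0 _ (mt (ZMod.intCast_zmod_eq_zero_iff_dvd (a i) p).1 (h i)),
    Subgroup.subset_closure ⟨i, rfl⟩⟩, fun _ => rfl⟩

theorem dvd_index {p n : ℕ} (hp : p.Prime) (h : ∀ i, ¬ (p : ℤ) ∣ a i) :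
    n ∣ (gp a p).index ↔ Cd a n p := by
  have := Fact.mk hp
  have h1 := card_gp (a := a) hp
  have h2 := hp.two_le
  constructor
  · rintro ⟨k, hk⟩
    have h3 : p - 1 = n * (Nat.card (gp a p) * k) := by rw [← h1, hk]; ring
    have h4 : 0 < n := Nat.pos_of_ne_zero (by rintro rfl; omega)
    obtain ⟨u, hu⟩ := ex_unit hp h
    refine ⟨⟨_, h3⟩, fun i => ?_⟩
    rw [h3, Nat.mul_div_cancel_left _ h4, ← hu, ← Units.val_pow_eq_pow_val, ← Subgroup.coe_pow,
      pow_mul, pow_card_eq_one', one_pow]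
    rfl
  · rintro ⟨⟨m, hm⟩, h3⟩
    have h4 : 0 < n := Nat.pos_of_ne_zero (by rintro rfl; omega)
    rw [hm, Nat.mul_div_cancel_left _ h4] at h3
    have h5 : gp a p ≤ (powMonoidHom m).ker := (Subgroup.closure_le _).2 fun u ⟨i, hu⟩ =>
      Units.ext (by simpa [hu] using h3 i)
    obtain ⟨k, hk⟩ : Nat.card (gp a p) ∣ m := by
      rw [← IsCyclic.exponent_eq_card]
      exact Monoid.exponent_dvd_of_forall_pow_eq_one fun u => Subtype.ext (h5 u.2)
    refine ⟨k, Nat.eq_of_mul_eq_mul_left (Nat.card_pos (α := gp a p)) ?_⟩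
    rw [h1, hm, hk]
    ring

theorem small (ha : Function.Injective fun e : Fin r → ℕ => ∏ i, a i ^ e i) :
    ∃ E : ℕ, ∀ M : ℕ, 1 ≤ M → ∃ T : Finset ℕ, T.card ≤ E * M ^ (r + 1) ∧ ∀ p : ℕ, p.Prime →
      (∀ i, ¬ (p : ℤ) ∣ a i) → Nat.card (gp a p) < (M + 1) ^ r → p ∈ T := by
  classical
  obtain ⟨k, hk⟩ : ∃ k : ℕ, ∀ i, (a i).natAbs ≤ 2 ^ k := ⟨∑ i, (a i).natAbs, fun i =>
    (single_le_sum (f := fun i => (a i).natAbs) (fun _ _ => Nat.zero_le _) (mem_univ i)).trans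
      Nat.lt_two_pow_self.le⟩
  refine ⟨3 ^ r * (k * r + 1), fun M hM => ⟨(Fintype.piFinset fun _ => range (2 * M + 1)).biUnion
    fun d => (∏ i, a i ^ (d i - M) - ∏ i, a i ^ (M - d i)).natAbs.primeFactors, ?_,
    fun p hp h1 h2 => ?_⟩⟩
  · have key : ∀ e : Fin r → ℕ, (∀ i, e i ≤ M) → (∏ i, a i ^ e i).natAbs ≤ 2 ^ (k * r * M) := by
      intro e he
      rw [← Int.natAbsHom_apply, map_prod]
      refine (prod_le_pow_card _ _ ((2 ^ k) ^ M) fun i _ => ?_).trans (le_of_eq ?_)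
      · rw [map_pow]
        exact (Nat.pow_le_pow_left (hk i) _).trans (Nat.pow_le_pow_right (by positivity) (he i))
      · rw [card_univ, Fintype.card_fin, ← pow_mul, ← pow_mul]
        congr 1
        ring
    refine card_biUnion_le.trans ((sum_le_card_nsmul _ _ (k * r * M + 1) fun d hd => ?_).trans ?_)
    · rcases eq_or_ne (∏ i, a i ^ (d i - M) - ∏ i, a i ^ (M - d i)).natAbs 0 with e | e
      · simp [e]
      refine Art.card_primeFactors_le e ((Int.natAbs_sub_le _ _).trans ?_)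
      have b1 := key (fun i => d i - M) fun i => by
        have := mem_range.1 (Fintype.mem_piFinset.1 hd i)
        omega
      have b2 := key (fun i => M - d i) fun i => Nat.sub_le _ _
      rw [pow_succ]
      omega
    · rw [Fintype.card_piFinset_const, card_range, smul_eq_mul, pow_succ M,
        mul_mul_mul_comm, ← mul_pow]
      exact Nat.mul_le_mul (Nat.pow_le_pow_left (by omega) _) (by rw [add_mul]; omega)
  have := Fact.mk hp
  obtain ⟨u, hu⟩ := ex_unit hp h1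
  have := Fintype.ofFinite (gp a p)
  obtain ⟨e, he, f, hf, h3, h4⟩ := exists_ne_map_eq_of_card_lt_of_maps_to
    (s := Fintype.piFinset fun _ : Fin r => range (M + 1)) (t := (univ : Finset (gp a p)))
    (by rwa [Fintype.card_piFinset_const, card_range, card_univ, ← Nat.card_eq_fintype_card])
    (f := fun e => ∏ i, u i ^ e i) fun _ _ => mem_univ _
  have b1 := fun i => mem_range.1 (Fintype.mem_piFinset.1 he i)
  have b2 := fun i => mem_range.1 (Fintype.mem_piFinset.1 hf i)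
  have b3 : ∀ i, e i + M - f i - M = e i - f i := fun i => by have := b2 i; omega
  have b4 : ∀ i, M - (e i + M - f i) = f i - e i := fun i => by have := b2 i; omega
  refine mem_biUnion.2 ⟨fun i => e i + M - f i, Fintype.mem_piFinset.2 fun i =>
    mem_range.2 (by have := b1 i; omega), ?_⟩
  simp only [b3, b4]
  refine Nat.mem_primeFactors.2 ⟨hp, ?_, Int.natAbs_ne_zero.2 (sub_ne_zero.2 fun h => h3 ?_)⟩
  · have h5 : ∏ i, u i ^ (e i - f i) = ∏ i, u i ^ (f i - e i) := by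
      refine mul_right_cancel (b := ∏ i, u i ^ min (e i) (f i)) ?_
      simp only [← prod_mul_distrib, ← pow_add, tsub_add_min, min_comm (e _) (f _)]
      simpa only [min_comm (f _) (e _), tsub_add_min] using h4
    have h6 := congrArg (fun x : gp a p => ((x : (ZMod p)ˣ) : ZMod p)) h5
    simp only [SubmonoidClass.coe_finsetProd, Units.coe_prod, Subgroup.coe_pow,
      Units.val_pow_eq_pow_val, hu] at h6
    rw [← Int.natCast_dvd, ← ZMod.intCast_zmod_eq_zero_iff_dvd]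
    push_cast
    exact sub_eq_zero.2 h6
  · funext i
    have := congrFun (ha h) i
    omega

theorem ne_one (ha : Function.Injective fun e : Fin r → ℕ => ∏ i, a i ^ e i) (i : Fin r) :
    a i ≠ 0 ∧ ∀ n, 0 < n → a i ^ n ≠ 1 := by
  have key : ∀ m n : ℕ, a i ^ m = a i ^ n → m = n := fun m n h => by
    have e : ∀ m : ℕ, ∏ j, a j ^ (Pi.single i m : Fin r → ℕ) j = a i ^ m := fun m => by
      rw [prod_eq_single i (fun j _ hj => by simp [hj]) (by simp)]
      simp
    simpa using congrFun (ha (a₁ := Pi.single i m) (a₂ := Pi.single i n)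
      ((e m).trans (h.trans (e n).symm))) i
  exact ⟨fun h => by simpa [h] using key 1 2, fun n hn h => hn.ne' (key n 0 (by simpa using h))⟩

theorem tail {δ : ℝ} (h0 : 0 < δ) (h1 : δ ≤ 1 / 2) (hC : CH δ) (hr : 8 / δ ≤ r)
    (ha : Function.Injective fun e : Fin r → ℕ => ∏ i, a i ^ e i) :
    ∃ C : ℝ, ∀ᶠ y : ℕ in atTop, ∀ᶠ N in atTop, ∑ n ∈ range (N + 1),
      ind (fun p => ∃ l : ℕ, l.Prime ∧ y < l ∧ l ∣ (gp a p).index) n ≤ C / y * G N := by
  classical
  have r0 : (0 : ℝ) < r := lt_of_lt_of_le (by positivity) hr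
  obtain ⟨i₀⟩ : Nonempty (Fin r) := ⟨⟨0, by exact_mod_cast r0⟩⟩
  obtain ⟨⟨D, C, l₀, hD0, hC0, hS⟩, -⟩ := sp_so (by linarith) hC (X - C (a i₀)) fun z hz => by
    obtain rfl : z = a i₀ := by simpa [sub_eq_zero] using hz
    exact ⟨by exact_mod_cast (ne_one ha i₀).1,
      fun n hn => by exact_mod_cast (ne_one ha i₀).2 n hn⟩
  obtain ⟨E, hE⟩ := small ha
  refine ⟨4 * (2 * D + 2), ?_⟩
  filter_upwards [eventually_ge_atTop (l₀ + 1)] with y hy
  have y0 : (1 : ℝ) ≤ y := by exact_mod_cast (by omega : 1 ≤ y)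
  rw [mul_div_assoc]
  refine dyadic (by positivity) ?_
  filter_upwards [pow_le_G C (show 0 < δ / 4 by positivity) (show 0 < 1 / (y : ℝ) by positivity),
    pow_le_G (E * 3 ^ (r + 1)) (show 0 < δ / 8 by positivity) (show 0 < 1 / (y : ℝ) by positivity),
    eventually_ge_atTop (2 + ∑ i, (a i).natAbs)] with N e1 e2 e3 Y hY hY2
  have hX1 : (1 : ℝ) < N := by exact_mod_cast (by omega : 1 < N)
  have hX : (0 : ℝ) < N := by linarith
  set L1 := (N : ℝ) ^ (δ / 4) with hL1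
  have hL1pos : 0 < L1 := Real.rpow_pos_of_pos hX _
  set Z := (N : ℝ) ^ ((1 - δ / 4) / r) with hZ
  have hZ1 : 1 ≤ Z := Real.one_le_rpow hX1.le (div_nonneg (by linarith) r0.le)
  obtain ⟨T, hT, hT'⟩ := hE ⌈2 * Z⌉₊ (Nat.one_le_ceil_iff.2 (by linarith))
  set wi := (Icc (y + 1) ⌊L1⌋₊).filter Nat.Prime with hwin
  rw [← sum_range_add_sum_Ico _ (Nat.add_le_add_right hY 1), Ico_add_one_add_one_eq_Ioc,
    add_sub_cancel_left]
  simp only [ind, sum_boole]
  have hsub : ((Ioc N Y).filter fun p => p.Prime ∧ ∃ l : ℕ, l.Prime ∧ y < l ∧ l ∣ (gp a p).index) ⊆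
      wi.biUnion (fun l => (Ioc N Y).filter (Bd (X - Polynomial.C (a i₀)) l)) ∪ T := by
    intro p hp
    obtain ⟨p1, p2, l, l1, l2, l3⟩ := mem_filter.1 hp
    obtain ⟨p3, p4⟩ := mem_Ioc.1 p1
    have p5 : ∀ i, ¬ (p : ℤ) ∣ a i := fun i h => by
      have b1 := Nat.le_of_dvd (Int.natAbs_pos.2 (ne_one ha i).1) (Int.natCast_dvd.1 h)
      have b2 := single_le_sum (f := fun i => (a i).natAbs) (fun _ _ => Nat.zero_le _) (mem_univ i)
      omega
    rcases le_or_gt l ⌊L1⌋₊ with h | h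
    · obtain ⟨c1, c2⟩ := (dvd_index p2 p5).1 l3
      exact mem_union_left _ (mem_biUnion.2 ⟨l, mem_filter.2 ⟨mem_Icc.2 ⟨l2, h⟩, l1⟩,
        mem_filter.2 ⟨p1, p2, c1, a i₀, by simp, c2 i₀⟩⟩)
    refine mem_union_right _ (hT' p p2 p5 ?_)
    have c1 := card_gp (a := a) p2
    have c2 : l ≤ (gp a p).index := Nat.le_of_dvd (Nat.pos_of_ne_zero fun e => by
      rw [e] at c1; omega) l3
    have c3 : (Nat.card (gp a p) : ℝ) * l ≤ 2 * N := by
      exact_mod_cast (Nat.mul_le_mul_left _ c2).trans (by omega)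
    have c4 : L1 ≤ l := ((Nat.floor_lt hL1pos.le).1 h).le
    have c5 : Z ^ r * L1 = N := by
      rw [hZ, hL1, ← Real.rpow_mul_natCast hX.le, ← Real.rpow_add hX, div_mul_cancel₀ _ r0.ne',
        sub_add_cancel, Real.rpow_one]
    have c6 : (Nat.card (gp a p) : ℝ) ≤ 2 * Z ^ r := le_of_mul_le_mul_right
      (((mul_le_mul_of_nonneg_left c4 (Nat.cast_nonneg _)).trans c3).trans_eq
        (by rw [mul_assoc, c5])) hL1pos
    have c7 : r ≠ 0 := by exact_mod_cast r0.ne'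
    have c8 : (2 * Z) ^ r < ((⌈2 * Z⌉₊ : ℝ) + 1) ^ r :=
      pow_lt_pow_left₀ ((Nat.le_ceil _).trans_lt (lt_add_one _)) (by linarith) c7
    have c9 : 2 * Z ^ r ≤ (2 * Z) ^ r := by
      rw [mul_pow]
      exact mul_le_mul_of_nonneg_right (le_self_pow₀ one_le_two c7) (by positivity)
    exact_mod_cast (c6.trans c9).trans_lt c8
  have hcard := (Nat.cast_le (α := ℝ)).2 ((card_le_card hsub).trans ((card_union_le _ _).trans
    (Nat.add_le_add card_biUnion_le hT)))
  rw [Nat.cast_add, Nat.cast_sum, Nat.cast_mul, Nat.cast_pow] at hcard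
  have hXδ : 0 ≤ (N : ℝ) ^ (1 - δ) := Real.rpow_nonneg hX.le _
  have hfl : (⌊L1⌋₊ : ℝ) ≤ L1 := Nat.floor_le hL1pos.le
  have hG := G_nonneg N
  have hbad : ∑ l ∈ wi, (((Ioc N Y).filter (Bd (X - Polynomial.C (a i₀)) l)).card : ℝ) ≤
      D * G N * (2 / y) + L1 * (C * (L1 ^ 2 * (N : ℝ) ^ (1 - δ))) := by
    have s1 : ∀ l ∈ wi, (((Ioc N Y).filter (Bd (X - Polynomial.C (a i₀)) l)).card : ℝ) ≤
        D * G N * (1 / (l : ℝ) ^ 2) + C * (L1 ^ 2 * (N : ℝ) ^ (1 - δ)) := by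
      intro l hl
      obtain ⟨hl1, hl2⟩ := mem_filter.1 hl
      obtain ⟨hl3, hl4⟩ := mem_Icc.1 hl1
      have b2 : (l : ℝ) ≤ L1 := (Nat.le_floor_iff hL1pos.le).1 hl4
      have b3 : (Y : ℝ) ≤ 2 * N := by exact_mod_cast hY2
      have b4 := Real.log_natCast_nonneg N
      refine (hS l hl2 (by omega) N Y (by omega) hY hY2).trans ?_
      rw [mul_one_div, G]
      gcongr
      linarith
    refine (sum_le_sum s1).trans ?_
    rw [sum_add_distrib, ← mul_sum, sum_const, nsmul_eq_mul]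
    refine add_le_add (mul_le_mul_of_nonneg_left ?_ (by positivity))
      (mul_le_mul_of_nonneg_right ?_ (by positivity))
    · have b1 := Art.sum_inv_sq_win (L := ((y + 1 : ℕ) : ℝ)) (by push_cast; linarith) ⌊L1⌋₊
      rw [Nat.ceil_natCast] at b1
      refine (sum_le_sum_of_subset_of_nonneg (filter_subset _ _)
        fun l _ _ => by positivity).trans (b1.trans ?_)
      gcongr
      omega
    · have b2 : wi.card ≤ ⌊L1⌋₊ := by
        refine (card_filter_le _ _).trans ?_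
        rw [Nat.card_Icc]
        omega
      exact ((Nat.cast_le (α := ℝ)).2 b2).trans hfl
  have t2 : L1 * (C * (L1 ^ 2 * (N : ℝ) ^ (1 - δ))) = C * (N : ℝ) ^ (1 - δ / 4) := by
    have b2 : L1 ^ 3 * (N : ℝ) ^ (1 - δ) = (N : ℝ) ^ (1 - δ / 4) := by
      rw [hL1, ← Real.rpow_mul_natCast hX.le, ← Real.rpow_add hX]
      congr 1
      push_cast
      ring
    rw [← b2]
    ring
  have t3 : (E : ℝ) * (⌈2 * Z⌉₊ : ℝ) ^ (r + 1) ≤ E * 3 ^ (r + 1) * (N : ℝ) ^ (1 - δ / 8) := by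
    have b1 : (⌈2 * Z⌉₊ : ℝ) ≤ 3 * Z := by
      linarith [Nat.ceil_lt_add_one (show 0 ≤ 2 * Z by linarith)]
    have b2 : Z ^ (r + 1) ≤ (N : ℝ) ^ (1 - δ / 8) := by
      rw [hZ, ← Real.rpow_mul_natCast hX.le]
      refine Real.rpow_le_rpow_of_exponent_le hX1.le ?_
      rw [div_le_iff₀ h0] at hr
      rw [div_mul_eq_mul_div, div_le_iff₀ r0]
      push_cast
      nlinarith
    rw [mul_assoc]
    refine mul_le_mul_of_nonneg_left ((pow_le_pow_left₀ (Nat.cast_nonneg _) b1 _).trans ?_)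
      (Nat.cast_nonneg _)
    rw [mul_pow]
    exact mul_le_mul_of_nonneg_left b2 (by positivity)
  have t4 : (2 * D + 2) / y * G N = D * G N * (2 / y) + 1 / y * G N + 1 / y * G N := by ring
  refine le_trans (le_of_eq ?_) (hcard.trans (by linarith))
  congr

end Vale.Agent.N016C
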