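import Mathlib.NumberTheory.Primorial
import Mathlib.NumberTheory.ArithmeticFunction.Moebius
import Vale.Agent.N016B.Main
import Vale.Agent.N016C.Tail

/-!
P016: the asymptotic formula for groups of large rank.
-/

open Finset Filter Topology ArithmeticFunction IntermediateField

namespace Vale.Agent.N016C

open Vale.Agent.P016Z Vale.Agent.N016B

theorem pit : PIT := fun K _ _ _ => av_aK (θ := 11 / 12) (by norm_num) (by norm_num) hcont hbd
  expLog (nonVan (by norm_num) (by norm_num) hcont expLog muInv spl12 mub) K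

theorem sum_mu {P : ℕ} (hP : P ≠ 0) (m : ℕ) :
    ∑ n ∈ P.divisors, (if n ∣ m then (moebius n : ℝ) else 0) = if P.Coprime m then 1 else 0 := by
  have h := congrArg (fun f : ArithmeticFunction ℝ => f (P.gcd m)) coe_moebius_mul_coe_zeta
  simp only [coe_mul_zeta_apply, one_apply, intCoe_apply] at h
  rw [← h, ← sum_filter]
  congr 1
  ext n
  simp [Nat.dvd_gcd_iff, hP]

theorem lim {u s : ℕ → ℝ} {w : ℕ → ℕ → ℝ} {C : ℝ} (h1 : ∀ y, Tendsto (w y) atTop (𝓝 (s y)))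
    (h2 : ∀ᶠ y : ℕ in atTop, ∀ᶠ N in atTop, |u N - w y N| ≤ C / y) :
    ∃ δ, Tendsto u atTop (𝓝 δ) ∧ Tendsto s atTop (𝓝 δ) := by
  have h0 := tendsto_const_div_atTop_nhds_zero_nat C
  obtain ⟨δ, hδ⟩ : ∃ δ, Tendsto u atTop (𝓝 δ) := by
    refine cauchySeq_tendsto_of_complete (Metric.cauchySeq_iff.2 fun ε hε => ?_)
    obtain ⟨y, y1, y2⟩ := (h2.and (h0.eventually (gt_mem_nhds (show 0 < ε / 4 by positivity)))).exists
    obtain ⟨N, hN⟩ := eventually_atTop.1
      (y1.and (Metric.tendsto_nhds.1 (h1 y) (ε / 4) (by positivity)))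
    refine ⟨N, fun m hm n hn => ?_⟩
    obtain ⟨a1, a2⟩ := hN m hm
    obtain ⟨a3, a4⟩ := hN n hn
    rw [Real.dist_eq, abs_lt] at a2 a4 ⊢
    rw [abs_le] at a1 a3
    constructor <;> linarith
  refine ⟨δ, hδ, tendsto_iff_dist_tendsto_zero.2 (squeeze_zero' (.of_forall fun _ => dist_nonneg)
    (h2.mono fun y hy => ?_) h0)⟩
  rw [Real.dist_eq, abs_sub_comm]
  exact le_of_tendsto (hδ.sub (h1 y)).abs hy

theorem AV.real {P : ℕ → Prop} {δ : ℝ} (h : AV (ind P) δ) :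
    Tendsto (fun x : ℝ => ({p : ℕ | (p : ℝ) ≤ x ∧ p.Prime ∧ P p}.ncard : ℝ) / (x / Real.log x))
      atTop (𝓝 δ) := by
  classical
  have t0 := PNT.primeCounting_mul_log_div_tendsto
  have t1 := (Tendsto.comp h tendsto_nat_floor_atTop (α := ℝ)).mul (t0.div
    (t0.comp (tendsto_natCast_atTop_atTop.comp tendsto_nat_floor_atTop)) one_ne_zero)
  rw [div_one, mul_one] at t1
  refine t1.congr' ?_
  filter_upwards [eventually_ge_atTop 2] with x hx
  have a1 : 2 ≤ ⌊x⌋₊ := Nat.le_floor (by exact_mod_cast hx)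
  have a2 : (Nat.primeCounting ⌊x⌋₊ : ℝ) ≠ 0 := by
    exact_mod_cast mt Nat.primeCounting_eq_zero_iff.1 (by omega)
  have a3 : (⌊x⌋₊ : ℝ) ≠ 0 := by exact_mod_cast (by omega : ⌊x⌋₊ ≠ 0)
  have a4 : Real.log ⌊x⌋₊ ≠ 0 := (Real.log_pos (by exact_mod_cast (by omega : 1 < ⌊x⌋₊))).ne'
  have a5 : {p : ℕ | (p : ℝ) ≤ x ∧ p.Prime ∧ P p} =
      ((range (⌊x⌋₊ + 1)).filter fun p => p.Prime ∧ P p : Finset ℕ) := by
    ext p
    simp [Nat.le_floor_iff (show 0 ≤ x by linarith)]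
  simp only [Function.comp, Pi.div_apply, Nat.floor_natCast, G, ind, sum_boole, a5,
    Set.ncard_coe_finset]
  field_simp

variable {r : ℕ} {a : Fin r → ℤ}

theorem not_dvd (ha : ∀ i, a i ≠ 0) {p : ℕ} (hp : ∑ i, (a i).natAbs < p) (i : Fin r) :
    ¬ (p : ℤ) ∣ a i := fun h => by
  have b1 := Nat.le_of_dvd (Int.natAbs_pos.2 (ha i)) (Int.natCast_dvd.1 h)
  have b2 := single_le_sum (f := fun i => (a i).natAbs) (fun _ _ => Nat.zero_le _) (mem_univ i)
  omega

theorem av_index {δ : ℝ} (h0 : 0 < δ) (h1 : δ ≤ 1 / 2) (hC : CH δ) (hr : 8 / δ ≤ r)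
    (ha : Function.Injective fun e : Fin r → ℕ => ∏ i, a i ^ e i) {t : ℕ} (ht : 0 < t) :
    ∃ d, AV (ind fun p => (gp a p).index = t) d ∧
      Tendsto (fun y : ℕ => ∑ n ∈ (primorial y).divisors, (moebius n : ℝ) /
        Module.finrank ℚ (adjoin ℚ {z : ℂ | ∃ i, z ^ (n * t) = a i})) atTop (𝓝 d) := by
  classical
  have r0 : (0 : ℝ) < r := lt_of_lt_of_le (by positivity) hr
  have : Nonempty (Fin r) := ⟨⟨0, by exact_mod_cast r0⟩⟩
  have a0 := fun i => (ne_one ha i).1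
  obtain ⟨C, hT⟩ := tail h0 h1 hC hr ha
  refine lim (C := C) (w := fun y N => (∑ n ∈ range (N + 1), ind (fun p => t ∣ (gp a p).index ∧
    (primorial y).Coprime ((gp a p).index / t)) n) / G N) (fun y => ?_) (hT.mono fun y hy => ?_)
  · simp only [div_eq_mul_one_div (moebius _ : ℝ)]
    refine (AV.sum _ fun n hn => (av_cd pit a0 (mul_ne_zero (Nat.pos_of_mem_divisors hn).ne'
      ht.ne')).const_mul _).congr (∑ i, (a i).natAbs) fun p hp => ?_
    by_cases h : p.Prime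
    swap
    · simp [ind, h]
    simp only [ind, h, true_and, ← dvd_index h (not_dvd a0 hp), mul_ite, mul_one, mul_zero]
    by_cases h' : t ∣ (gp a p).index
    · obtain ⟨m, hm⟩ := h'
      simp only [hm, mul_comm t m, Nat.mul_dvd_mul_iff_right ht, dvd_mul_left, true_and,
        Nat.mul_div_cancel _ ht]
      rw [sum_mu (primorial_ne_zero y)]
    · rw [if_neg fun e => h' e.1]
      exact sum_eq_zero fun n _ => if_neg fun e => h' ((dvd_mul_left t n).trans e)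
  · filter_upwards [hy, eventually_ge_atTop 2] with N e1 e2
    have := G_pos e2
    rw [← sub_div, abs_div, abs_of_pos this, div_le_iff₀ this, ← sum_sub_distrib]
    refine (abs_sum_le_sum_abs _ _).trans ((sum_le_sum fun p _ => ?_).trans e1)
    by_cases h : p.Prime
    swap
    · simp [ind, h]
    simp only [ind, h, true_and]
    by_cases h2 : (gp a p).index = t
    · simp only [h2, dvd_refl, Nat.div_self ht, Nat.coprime_one_right_eq_true, and_self, if_true,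
        sub_self, abs_zero]
      positivity
    split_ifs with h3 h4 h4
    · simp
    · obtain ⟨⟨m, hm⟩, h5⟩ := h3
      rw [hm, Nat.mul_div_cancel_left _ ht] at h5
      obtain ⟨l, l1, l2⟩ := Nat.exists_prime_and_dvd (n := m) (by rintro rfl; exact h2 (by omega))
      exact (h4 ⟨l, l1, not_le.1 fun e => l1.one_lt.ne' (Nat.eq_one_of_dvd_coprimes h5
        (l1.dvd_primorial_iff.2 e) l2), hm ▸ l2.mul_left t⟩).elim
    · simp
    · simp

theorem rank : ∃ r₀ : ℕ, ∀ r : ℕ, r₀ ≤ r → ∀ a : Fin r → ℤ,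
    (Function.Injective fun e : Fin r → ℕ => ∏ i, a i ^ e i) → ∀ t : ℕ, 0 < t → ∃ δ : ℝ,
      Tendsto (fun x : ℝ => ({p : ℕ | (p : ℝ) ≤ x ∧ p.Prime ∧ (∀ i, ¬ (p : ℤ) ∣ a i) ∧
        (Subgroup.closure {u : (ZMod p)ˣ | ∃ i, (u : ZMod p) = a i}).index = t}.ncard : ℝ) /
          (x / Real.log x)) atTop (𝓝 δ) ∧
      Tendsto (fun y : ℕ => ∑ n ∈ (primorial y).divisors, (moebius n : ℝ) /
        Module.finrank ℚ (adjoin ℚ {z : ℂ | ∃ i, z ^ (n * t) = a i})) atTop (𝓝 δ) ∧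
      (t = 1 → (0 < δ ↔ ∃ i, ¬ IsSquare (a i))) := by
  classical
  obtain ⟨δ, h0, h1, h2⟩ := ch_of cheb1'
  refine ⟨⌈8 / δ⌉₊, fun r hr a ha t ht => ?_⟩
  obtain ⟨d, h3, h4⟩ := av_index h0 h1 h2 (Nat.ceil_le.1 hr) ha ht
  have a0 := fun i => (ne_one ha i).1
  refine ⟨d, (h3.congr (∑ i, (a i).natAbs) fun p hp => ?_).real, h4, ?_⟩
  · exact @if_congr _ _ _ (_) (_) _ _ _ _
      (and_congr_right' (and_iff_right (not_dvd a0 hp)).symm) rfl rfl
  rintro rfl
  constructor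
  · intro hd
    by_contra hc
    push Not at hc
    have h5 := h3.congr (g := fun _ => 0) (2 + ∑ i, (a i).natAbs) fun p hp => if_neg fun h => by
      have := Fact.mk h.1
      have b1 := not_dvd a0 (p := p) (by omega)
      obtain ⟨m, hm⟩ := h.1.odd_of_ne_two (by omega)
      have b2 : 2 ∣ (gp a p).index := (dvd_index h.1 b1).2 ⟨⟨m, by omega⟩, fun i => by
        rw [show (p - 1) / 2 = p / 2 by omega, ← ZMod.euler_criterion p
          (mt (ZMod.intCast_zmod_eq_zero_iff_dvd (a i) p).1 (b1 i))]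
        exact (hc i).map (Int.castRingHom (ZMod p))⟩
      omega
    refine hd.ne' (tendsto_nhds_unique h5 ?_)
    simp
  · rintro ⟨i, hi⟩
    obtain ⟨c, c0, ⟨x₀, c1⟩, -⟩ := N016.density (a i)
      (fun e => (ne_one ha i).2 2 two_pos (by rw [e]; rfl)) hi
    refine c0.trans_le (ge_of_tendsto h3.real ?_)
    filter_upwards [eventually_ge_atTop x₀, eventually_gt_atTop 1] with x e1 e2
    rw [le_div_iff₀ (div_pos (by linarith) (Real.log_pos e2))]
    refine (c1 x e1).trans (Nat.cast_le.2 (Set.ncard_le_ncard (fun p hp => ?_)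
      ((Set.finite_le_nat ⌊x⌋₊).subset fun p hp => Nat.le_floor hp.1)))
    obtain ⟨p1, p2, p3, p4⟩ := hp
    refine ⟨p1, p2, ?_⟩
    have := Fact.mk p2
    have b1 := card_gp (a := a) p2
    have b2 := p2.two_le
    obtain ⟨k, hk⟩ : p - 1 ∣ Nat.card (gp a p) := by
      have b3 := Subgroup.orderOf_dvd_natCard (gp a p) (x := Units.mk0 _
        (mt (ZMod.intCast_zmod_eq_zero_iff_dvd (a i) p).1 p3)) (Subgroup.subset_closure ⟨i, rfl⟩)
      rwa [← orderOf_units, Units.val_mk0, p4] at b3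
    rw [hk, mul_assoc] at b1
    exact Nat.eq_one_of_mul_eq_one_left
      (Nat.eq_of_mul_eq_mul_left (by omega) (b1.trans (mul_one _).symm))

theorem artin_gen (a : ℤ) (h1 : a ≠ -1) (h2 : ¬ IsSquare a) :
    {p : ℕ | p.Prime ∧ ¬ (p : ℤ) ∣ a ∧
      ∀ x : ZMod p, x ≠ 0 → ∃ k : ℕ, (a : ZMod p) ^ k = x}.Infinite := by
  refine (artin_of_mub (by norm_num) (by norm_num) mub a h1 h2).mono ?_
  rintro p ⟨p1, p2, p3⟩
  refine ⟨p1, p2, fun x hx => ?_⟩
  have := Fact.mk p1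
  have : NeZero (p - 1) := ⟨by have := p1.two_le; omega⟩
  obtain ⟨k, -, hk⟩ := (IsPrimitiveRoot.iff_orderOf.2 p3).eq_pow_of_pow_eq_one
    (ZMod.pow_card_sub_one_eq_one hx)
  exact ⟨k, hk⟩

end Vale.Agent.N016C
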