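import Vale.Agent.N016C.Main

/-!
The asymptotic formula of the quantitative form of Artin's primitive root conjecture for the
groups generated by sufficiently many multiplicatively independent integers.
-/

open Filter Topology

/-- There is `r₀` such that for `r ≥ r₀` multiplicatively independent integers `a i` and `t ≥ 1`,
the number of primes `p ≤ x` for which the `a i` generate a subgroup of index `t` of `(ℤ/p)ˣ`
is `(δ + o(1)) x / log x`, where `δ = ∑ μ(n) / [ℚ(μ_{nt}, a_1^{1/nt}, …, a_r^{1/nt}) : ℚ]`; for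
`t = 1`, `δ > 0` exactly if some `a i` is not a square. -/
theorem Vale.Agent.N016C.largeRank_summary :
    ∃ r₀ : ℕ, ∀ r : ℕ, r₀ ≤ r → ∀ a : Fin r → ℤ,
      (Function.Injective fun e : Fin r → ℕ => ∏ i, a i ^ e i) → ∀ t : ℕ, 0 < t → ∃ δ : ℝ,
        Tendsto (fun x : ℝ => ({p : ℕ | (p : ℝ) ≤ x ∧ p.Prime ∧ (∀ i, ¬ (p : ℤ) ∣ a i) ∧
          (Subgroup.closure {u : (ZMod p)ˣ | ∃ i, (u : ZMod p) = a i}).index = t}.ncard : ℝ) /
            (x / Real.log x)) atTop (𝓝 δ) ∧
        Tendsto (fun y : ℕ => ∑ n ∈ (primorial y).divisors, (ArithmeticFunction.moebius n : ℝ) /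
          Module.finrank ℚ (IntermediateField.adjoin ℚ {z : ℂ | ∃ i, z ^ (n * t) = a i}))
            atTop (𝓝 δ) ∧
        (t = 1 → (0 < δ ↔ ∃ i, ¬ IsSquare (a i))) :=
  Vale.Agent.N016C.rank
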